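import Vale.Agent.P204.Kernel.Param
import Vale.Agent.P204.Kernel.Subord

/-!
# P204: averages over the widths of the superposition

For a function smooth up to width zero, the subordinated average is smooth, is differentiated
under the integral, and tends in every Sobolev sum to the value at width zero.
-/

open MeasureTheory Filter Topology Set
open scoped ContDiff

namespace Vale.Agent.P204.Kernel

open Vale.Agent.P204.General Vale.Agent.P204.Torus

/-- The distribution of the widths. -/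
noncomputable def omNu (ε : ℝ) : Measure ℝ :=
  (volume.withDensity fun t => ENNReal.ofReal (omW ε t)).map fun t => ε * Real.sqrt t

/-- Widths times an open set of parameters. -/
def wdSet (U : Set Pt) : Set (ℝ × Pt) := Ioo (-1 : ℝ) 1 ×ˢ U

theorem isOpen_wdSet {U : Set Pt} (hU : IsOpen U) : IsOpen (wdSet U) := isOpen_Ioo.prod hU

theorem Icc_half_subset : Icc (0 : ℝ) (1 / 2) ⊆ Ioo (-1) 1 := fun s hs =>
  ⟨by linarith [hs.1], by linarith [hs.2]⟩

theorem integrable_omW (ε : ℝ) : Integrable (omW ε) := by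
  refine (integrable_indicator_iff measurableSet_Ioc).2 ?_
  exact Continuous.integrableOn_Ioc (by fun_prop)

theorem omNu_finite (ε : ℝ) : IsFiniteMeasure (omNu ε) := by
  have := isFiniteMeasure_withDensity_ofReal (integrable_omW ε).2
  exact Measure.isFiniteMeasure_map _ _

theorem omW_ne {ε t : ℝ} (h : omW ε t ≠ 0) : t ∈ Ioc 0 (1 / ε) := by
  by_contra ht
  exact h (indicator_of_notMem ht _)

theorem width_mem {ε t : ℝ} (hε : 0 < ε) (hε4 : ε ≤ 1 / 4) (ht : t ∈ Ioc 0 (1 / ε)) :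
    ε * Real.sqrt t ∈ Ioc (0 : ℝ) (1 / 2) := by
  refine ⟨mul_pos hε (Real.sqrt_pos.2 ht.1), ?_⟩
  have := (sigma_sq_le hε ht.1 ht.2).trans hε4
  nlinarith [mul_pos hε (Real.sqrt_pos.2 ht.1)]

theorem ae_omNu {ε : ℝ} (hε : 0 < ε) (hε4 : ε ≤ 1 / 4) :
    ∀ᵐ s ∂omNu ε, s ∈ Icc (0 : ℝ) (1 / 2) := by
  refine (ae_map_iff (by fun_prop) measurableSet_Icc).2 ?_
  refine (ae_withDensity_iff (measurable_omW ε).ennreal_ofReal).2 (ae_of_all _ fun t ht => ?_)
  exact Ioc_subset_Icc_self (width_mem hε hε4 (omW_ne fun h => ht (by simp [h])))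

theorem integral_omNu {ε : ℝ} (hε : 0 < ε) (hε4 : ε ≤ 1 / 4) {f : ℝ → ℝ}
    (hf : ContinuousOn f (Ioo (-1) 1)) :
    ∫ s, f s ∂omNu ε = ∫ t, omW ε t * f (ε * Real.sqrt t) := by
  have hm : AEStronglyMeasurable f (omNu ε) := by
    have := hf.aestronglyMeasurable (μ := omNu ε) measurableSet_Ioo
    rwa [Measure.restrict_eq_self_of_ae_mem
      ((ae_omNu hε hε4).mono fun s hs => Icc_half_subset hs)] at this
  rw [omNu, integral_map (by fun_prop) hm, integral_withDensity_eq_integral_toReal_smul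
    (measurable_omW ε).ennreal_ofReal (ae_of_all _ fun _ => ENNReal.ofReal_lt_top)]
  simp only [ENNReal.toReal_ofReal (omW_nonneg ε _), smul_eq_mul]

/-- Smoothness of an average and differentiation under it. -/
theorem avg_deriv {U : Set Pt} (hU : IsOpen U) {S : ℝ × Pt → ℝ}
    (hS : ContDiffOn ℝ ∞ S (wdSet U)) {ε : ℝ} (hε : 0 < ε) (hε4 : ε ≤ 1 / 4) :
    ContDiffOn ℝ ∞ (fun q => ∫ s, S (s, q) ∂omNu ε) U ∧
      ∀ (l : List (Fin 4)), ∀ q ∈ U,
        pdL l (fun q => ∫ s, S (s, q) ∂omNu ε) q = ∫ s, dqL l S (s, q) ∂omNu ε := by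
  have := omNu_finite ε
  set P : Pt × ℝ →L[ℝ] ℝ × Pt :=
    (ContinuousLinearMap.snd ℝ Pt ℝ).prod (ContinuousLinearMap.fst ℝ Pt ℝ)
  have key : ∀ S : ℝ × Pt → ℝ, ContDiffOn ℝ ∞ S (wdSet U) → ∀ q ∈ U,
      ContDiffAt ℝ ∞ (fun q => ∫ s, S (s, q) ∂omNu ε) q ∧
      ∀ e, fderiv ℝ (fun q => ∫ s, S (s, q) ∂omNu ε) q e =
        ∫ s, fderiv ℝ S (s, q) (0, e) ∂omNu ε := by
    intro S hS q hq
    obtain ⟨ρ, hρ, hb⟩ := Metric.nhds_basis_closedBall.mem_iff.1 (hU.mem_nhds hq)
    set U' := Metric.ball q ρ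
    set W : Set ℝ := Ioo (-1) 1
    set G : Pt × ℝ → ℝ := S ∘ P
    have hsub : Metric.closedBall q ρ ×ˢ Icc (0 : ℝ) (1 / 2) ⊆ U ×ˢ W :=
      Set.prod_mono hb Icc_half_subset
    have hGU : ContDiffOn ℝ ∞ G (U ×ˢ W) := hS.comp P.contDiff.contDiffOn fun x hx => ⟨hx.2, hx.1⟩
    have hbd : ∀ n : ℕ, ∃ C, ∀ x ∈ Metric.closedBall q ρ ×ˢ Icc (0 : ℝ) (1 / 2),
        ‖iteratedFDeriv ℝ n G x‖ ≤ C := fun n =>
      ((isCompact_closedBall q ρ).prod isCompact_Icc).exists_bound_of_continuousOn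
        (((hGU.continuousOn_iteratedFDerivWithin (m := n) (by exact_mod_cast le_top)
          (hU.prod isOpen_Ioo).uniqueDiffOn).congr
          fun x hx => (iteratedFDerivWithin_of_isOpen n (hU.prod isOpen_Ioo) hx).symm).mono hsub)
    choose C hC using hbd
    have hG : ContDiffOn ℝ ∞ G (U' ×ˢ W) :=
      hGU.mono (Set.prod_mono (Metric.ball_subset_closedBall.trans hb) le_rfl)
    have hW : ∀ᵐ s ∂omNu ε, s ∈ W := (ae_omNu hε hε4).mono fun s hs => Icc_half_subset hs
    have hGb : ∀ n : ℕ, ∀ᵐ s ∂omNu ε, ∀ x ∈ U', ‖iteratedFDeriv ℝ n G (x, s)‖ ≤ C n := fun n =>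
      (ae_omNu hε hε4).mono fun s hs x hx => hC n (x, s) ⟨Metric.ball_subset_closedBall hx, hs⟩
    have hb' : ∀ n : ℕ, Integrable (fun _ : ℝ => C n) (omNu ε) := fun n => integrable_const _
    have hq' : q ∈ U' := Metric.mem_ball_self hρ
    refine ⟨(param_integral Metric.isOpen_ball isOpen_Ioo hW hG hb' hGb).1.contDiffAt
      (Metric.isOpen_ball.mem_nhds hq'), fun e => ?_⟩
    refine (param_fderiv Metric.isOpen_ball isOpen_Ioo hW hG hb' hGb hq' e).trans ?_
    refine integral_congr_ae (hW.mono fun s hs => ?_)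
    show fderiv ℝ (S ∘ P) (q, s) (e, 0) = fderiv ℝ S (s, q) (0, e)
    have hd : DifferentiableAt ℝ S (P (q, s)) :=
      (hS.contDiffAt ((isOpen_wdSet hU).mem_nhds ⟨hs, hq⟩)).differentiableAt (by simp)
    rw [(hd.hasFDerivAt.comp (q, s) P.hasFDerivAt).fderiv]
    rfl
  refine ⟨fun q hq => (key S hS q hq).1.contDiffWithinAt, fun l => ?_⟩
  induction l with
  | nil => intro q _; rfl
  | cons i l ih =>
    intro q hq
    show fderiv ℝ (pdL l _) q _ = _
    have he : pdL l (fun q => ∫ s, S (s, q) ∂omNu ε) =ᶠ[𝓝 q]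
        fun q => ∫ s, dqL l S (s, q) ∂omNu ε := eventually_of_mem (hU.mem_nhds hq) ih
    rw [he.fderiv_eq,
      (key _ (contDiffOn_dqL (isOpen_wdSet hU) hS l) q hq).2]
    rfl

theorem continuousOn_slice {U : Set Pt} {S : ℝ × Pt → ℝ} (hS : ContinuousOn S (wdSet U))
    {q : Pt} (hq : q ∈ U) : ContinuousOn (fun s => S (s, q)) (Ioo (-1) 1) :=
  hS.comp (by fun_prop : Continuous fun s : ℝ => (s, q)).continuousOn fun _ hs => ⟨hs, hq⟩

theorem integral_gamma : ∫ t in Ioi (0 : ℝ), t ^ 4 / 24 * Real.exp (-t) = 1 := by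
  have h := Real.Gamma_eq_integral (s := 5) (by norm_num)
  rw [show (5 : ℝ) = ((4 : ℕ) : ℝ) + 1 by norm_num, Real.Gamma_nat_eq_factorial] at h
  simp only [Nat.factorial, add_sub_cancel_right, Real.rpow_natCast] at h
  norm_num at h
  calc ∫ t in Ioi (0 : ℝ), t ^ 4 / 24 * Real.exp (-t)
      = ∫ t in Ioi (0 : ℝ), (24 : ℝ)⁻¹ * (Real.exp (-t) * t ^ 4) := by
        refine integral_congr_ae (ae_of_all _ fun t => ?_); ring
    _ = 1 := by rw [integral_const_mul, ← h]; norm_num

/-- The average of a function bounded near zero is bounded by the same constant. -/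
theorem abs_avg_le {f : ℝ → ℝ} {M ε : ℝ} (hε : 0 < ε) (hε4 : ε ≤ 1 / 4) (hM : 0 ≤ M)
    (hf : ∀ s ∈ Ioc (0 : ℝ) (1 / 2), |f s| ≤ M) :
    |∫ t, omW ε t * f (ε * Real.sqrt t)| ≤ M ∧
      ∀ t, |omW ε t * f (ε * Real.sqrt t)| ≤
        (Ioi (0 : ℝ)).indicator (fun t => t ^ 4 / 24 * Real.exp (-t) * M) t := by
  have hb : ∀ t, |omW ε t * f (ε * Real.sqrt t)| ≤
      (Ioi (0 : ℝ)).indicator (fun t => t ^ 4 / 24 * Real.exp (-t) * M) t := fun t => by
    by_cases ht : t ∈ Ioc 0 (1 / ε)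
    · rw [omW, indicator_of_mem ht, indicator_of_mem (show t ∈ Ioi (0 : ℝ) from ht.1), abs_mul,
        abs_of_nonneg (by have := ht.1; positivity : 0 ≤ t ^ 4 / 24 * Real.exp (-t))]
      exact mul_le_mul_of_nonneg_left (hf _ (width_mem hε hε4 ht))
        (by have := ht.1; positivity)
    · rw [omW, indicator_of_notMem ht, zero_mul, abs_zero]
      exact indicator_nonneg (fun t (ht : 0 < t) => by positivity) t
  refine ⟨?_, hb⟩
  have hi : Integrable ((Ioi (0 : ℝ)).indicator fun t => t ^ 4 / 24 * Real.exp (-t) * M) := by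
    refine (integrable_indicator_iff measurableSet_Ioi).2 (Integrable.mul_const ?_ M)
    exact Integrable.of_integral_ne_zero (by rw [integral_gamma]; norm_num)
  refine (norm_integral_le_of_norm_le hi
    (ae_of_all _ fun t => (Real.norm_eq_abs _).trans_le (hb t))).trans_eq ?_
  rw [integral_indicator measurableSet_Ioi, integral_mul_const, integral_gamma, one_mul]

/-- Averages tend to the value at width zero. -/
theorem tendsto_avg {f : ℝ → ℝ} (hf : ContinuousOn f (Ioo (-1) 1)) :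
    Tendsto (fun ε => ∫ t, omW ε t * f (ε * Real.sqrt t)) (𝓝[>] 0) (𝓝 (f 0)) := by
  obtain ⟨M, hM⟩ := isCompact_Icc.exists_bound_of_continuousOn (hf.mono Icc_half_subset)
  have hsmall : ∀ᶠ ε in 𝓝[>] (0 : ℝ), 0 < ε ∧ ε ≤ 1 / 4 :=
    eventually_of_mem (inter_mem self_mem_nhdsWithin
      (mem_nhdsWithin_of_mem_nhds (Iic_mem_nhds (by norm_num : (0 : ℝ) < 1 / 4))))
      fun ε hε => ⟨hε.1, hε.2⟩
  have hlim : ∫ t, (Ioi (0 : ℝ)).indicator (fun t => t ^ 4 / 24 * Real.exp (-t) * f 0) t = f 0 := by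
    rw [integral_indicator measurableSet_Ioi, integral_mul_const, integral_gamma, one_mul]
  rw [← hlim]
  refine tendsto_integral_filter_of_dominated_convergence
    ((Ioi (0 : ℝ)).indicator fun t => t ^ 4 / 24 * Real.exp (-t) * max M 0) ?_ ?_ ?_ ?_
  · refine hsmall.mono fun ε hε => ?_
    have h1 : ContinuousOn (fun t => f (ε * Real.sqrt t)) (Ioc 0 (1 / ε)) :=
      hf.comp (by fun_prop : Continuous fun t : ℝ => ε * Real.sqrt t).continuousOn fun t ht =>
        Icc_half_subset (Ioc_subset_Icc_self (width_mem hε.1 hε.2 ht))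
    have h2 : AEStronglyMeasurable
        ((Ioc 0 (1 / ε)).indicator fun t => t ^ 4 / 24 * Real.exp (-t) * f (ε * Real.sqrt t)) :=
      (aestronglyMeasurable_indicator_iff measurableSet_Ioc).2
        (((by fun_prop : Continuous fun t : ℝ => t ^ 4 / 24 * Real.exp (-t)).continuousOn.mul
          h1).aestronglyMeasurable measurableSet_Ioc)
    refine h2.congr (ae_of_all _ fun t => ?_)
    show _ = (Ioc 0 (1 / ε)).indicator _ t * _
    by_cases ht : t ∈ Ioc 0 (1 / ε)
    · rw [indicator_of_mem ht, indicator_of_mem ht]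
    · rw [indicator_of_notMem ht, indicator_of_notMem ht, zero_mul]
  · refine hsmall.mono fun ε hε => ae_of_all _ fun t => ?_
    exact (abs_avg_le (M := max M 0) hε.1 hε.2 (le_max_right _ _) fun s hs =>
      (hM s (Ioc_subset_Icc_self hs)).trans (le_max_left _ _)).2 t
  · refine (integrable_indicator_iff measurableSet_Ioi).2 (Integrable.mul_const ?_ _)
    exact Integrable.of_integral_ne_zero (by rw [integral_gamma]; norm_num)
  · refine ae_of_all _ fun t => ?_
    rcases le_or_gt t 0 with ht | ht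
    · have h0 : ∀ ε : ℝ, omW ε t = 0 := fun ε =>
        indicator_of_notMem (fun h => (not_lt.2 ht) h.1) _
      simp [h0, not_lt.2 ht]
    · rw [indicator_of_mem (show t ∈ Ioi (0 : ℝ) from ht)]
      have h1 : Tendsto (fun ε : ℝ => f (ε * Real.sqrt t)) (𝓝[>] 0) (𝓝 (f 0)) := by
        refine ((hf.continuousAt (isOpen_Ioo.mem_nhds (by norm_num))).tendsto.comp ?_).mono_left
          nhdsWithin_le_nhds
        simpa using ((continuous_mul_const (Real.sqrt t)).tendsto (0 : ℝ))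
      refine (h1.const_mul (t ^ 4 / 24 * Real.exp (-t))).congr' ?_
      refine eventually_of_mem (inter_mem self_mem_nhdsWithin
        (mem_nhdsWithin_of_mem_nhds (Iio_mem_nhds (show (0 : ℝ) < 1 / t by positivity))))
        fun ε (hε : 0 < ε ∧ ε < 1 / t) => ?_
      have : t ≤ 1 / ε := by
        rw [le_div_iff₀ hε.1]
        have := (lt_div_iff₀ ht).1 hε.2
        linarith
      show _ = (Ioc 0 (1 / ε)).indicator _ t * _
      rw [indicator_of_mem (show t ∈ Ioc 0 (1 / ε) from ⟨ht, this⟩)]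

theorem dqL_zero {G : ℝ × Pt → ℝ} {Kc : Set Pt} (hK : IsClosed Kc)
    (h : ∀ s q, q ∉ Kc → G (s, q) = 0) (i : Fin 4) :
    ∀ s q, q ∉ Kc → dqL [i] G (s, q) = 0 := fun s q hq => by
  have he : G =ᶠ[𝓝 (s, q)] fun _ => 0 :=
    eventually_of_mem ((hK.isOpen_compl.preimage continuous_snd).mem_nhds hq) fun x hx =>
      h x.1 x.2 hx
  simp [dqL, he.fderiv_eq]

/-- Averages tend in every Sobolev sum to the value at width zero. -/
theorem tendsto_sobR : ∀ (n : ℕ) {G : ℝ × Pt → ℝ}, ContDiffOn ℝ ∞ G (wdSet univ) →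
    (∀ s q, q ∉ Metric.closedBall (0 : Pt) (1 / 2) → G (s, q) = 0) →
    Tendsto (fun ε => sobR n fun p => (∫ s, G (s, p) ∂omNu ε) - G (0, p)) (𝓝[>] 0) (𝓝 0)
  | 0, G, hG, h0 => by
    obtain ⟨M, hM⟩ := (isCompact_Icc.prod (isCompact_closedBall (0 : Pt) (1 / 2))
      ).exists_bound_of_continuousOn (hG.continuousOn.mono
        (Set.prod_mono Icc_half_subset (Set.subset_univ _) : Icc (0 : ℝ) (1 / 2) ×ˢ _ ⊆ _))
    set M' := max M 0
    have hb : ∀ s ∈ Icc (0 : ℝ) (1 / 2), ∀ p, |G (s, p)| ≤ M' := fun s hs p => by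
      by_cases hp : p ∈ Metric.closedBall (0 : Pt) (1 / 2)
      · exact (hM (s, p) ⟨hs, hp⟩).trans (le_max_left _ _)
      · rw [h0 s p hp, abs_zero]; exact le_max_right _ _
    have hsmall : ∀ᶠ ε in 𝓝[>] (0 : ℝ), 0 < ε ∧ ε ≤ 1 / 4 :=
      eventually_of_mem (inter_mem self_mem_nhdsWithin
        (mem_nhdsWithin_of_mem_nhds (Iic_mem_nhds (by norm_num : (0 : ℝ) < 1 / 4))))
        fun ε hε => ⟨hε.1, hε.2⟩
    have hsl : ∀ p, ContinuousOn (fun s => G (s, p)) (Ioo (-1) 1) := fun p =>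
      continuousOn_slice hG.continuousOn (mem_univ p)
    simp only [sobR]
    rw [show 𝓝 (0 : ℝ) = 𝓝 (∫ _p : Pt, (0 : ℝ)) by simp]
    refine tendsto_integral_filter_of_dominated_convergence
      ((Metric.closedBall (0 : Pt) (1 / 2)).indicator fun _ => (2 * M') ^ 2) ?_ ?_ ?_ ?_
    · refine hsmall.mono fun ε hε => Continuous.aestronglyMeasurable ?_
      have h1 := ((avg_deriv isOpen_univ hG hε.1 hε.2).1.continuousOn)
      rw [← continuousOn_univ]
      refine ((h1.sub ?_).pow 2)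
      exact hG.continuousOn.comp (by fun_prop : Continuous fun p : Pt => ((0 : ℝ), p)).continuousOn
        fun p _ => ⟨by norm_num, mem_univ p⟩
    · refine hsmall.mono fun ε hε => ae_of_all _ fun p => ?_
      by_cases hp : p ∈ Metric.closedBall (0 : Pt) (1 / 2)
      · rw [indicator_of_mem hp, Real.norm_eq_abs, abs_pow]
        refine pow_le_pow_left₀ (abs_nonneg _) ((abs_sub _ _).trans ?_) 2
        rw [integral_omNu hε.1 hε.2 (hsl p)]
        have h1 := (abs_avg_le (f := fun s => G (s, p)) hε.1 hε.2 (le_max_right M 0)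
          fun s hs => hb s (Ioc_subset_Icc_self hs) p).1
        have h2 := hb 0 ⟨le_rfl, by norm_num⟩ p
        linarith
      · have : ∀ s, G (s, p) = 0 := fun s => h0 s p hp
        rw [indicator_of_notMem hp]
        simp [this]
    · exact (integrable_indicator_iff measurableSet_closedBall).2
        (integrableOn_const measure_closedBall_lt_top.ne)
    · refine ae_of_all _ fun p => ?_
      have h1 := ((tendsto_avg (hsl p)).sub_const (G (0, p))).pow 2
      rw [sub_self, zero_pow two_ne_zero] at h1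
      exact h1.congr' (hsmall.mono fun ε hε => by simp only [integral_omNu hε.1 hε.2 (hsl p)])
  | n + 1, G, hG, h0 => by
    have hsmall : ∀ᶠ ε in 𝓝[>] (0 : ℝ), 0 < ε ∧ ε ≤ 1 / 4 :=
      eventually_of_mem (inter_mem self_mem_nhdsWithin
        (mem_nhdsWithin_of_mem_nhds (Iic_mem_nhds (by norm_num : (0 : ℝ) < 1 / 4))))
        fun ε hε => ⟨hε.1, hε.2⟩
    have hd : ∀ i, Tendsto (fun ε => sobR n (pd i fun p => (∫ s, G (s, p) ∂omNu ε) - G (0, p)))
        (𝓝[>] 0) (𝓝 0) := fun i => by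
      refine (tendsto_sobR n (contDiffOn_dqL (isOpen_wdSet isOpen_univ) hG [i])
        (dqL_zero Metric.isClosed_closedBall h0 i)).congr' (hsmall.mono fun ε hε => ?_)
      show sobR n _ = sobR n _
      congr 1
      funext p
      obtain ⟨h1, h2⟩ := avg_deriv isOpen_univ hG hε.1 hε.2
      have hA : DifferentiableAt ℝ (fun p => ∫ s, G (s, p) ∂omNu ε) p :=
        (h1.contDiffAt univ_mem).differentiableAt (by simp)
      have hB := ((hG.contDiffAt ((isOpen_wdSet isOpen_univ).mem_nhds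
        (show ((0 : ℝ), p) ∈ wdSet univ from ⟨by norm_num, mem_univ p⟩))).differentiableAt
        (by simp)).hasFDerivAt.comp p (hasFDerivAt_prodMk_right (0 : ℝ) p)
      have hB' : DifferentiableAt ℝ (fun p => G (0, p)) p := hB.differentiableAt
      show _ = fderiv ℝ (fun p => (∫ s, G (s, p) ∂omNu ε) - G (0, p)) p (Pi.single i 1)
      rw [← h2 [i] p (mem_univ p), fderiv_fun_sub hA hB',
        sub_apply, show (fun p => G (0, p)) = G ∘ fun p : Pt => ((0 : ℝ), p) from rfl,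
        hB.fderiv]
      rfl
    have := (tendsto_sobR n hG h0).add (tendsto_finsetSum Finset.univ fun i _ => hd i)
    simpa [sobR] using this

end Vale.Agent.P204.Kernel
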