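import Vale.Agent.P204.Kernel.Approx.Rep
import Vale.Agent.P204.Kernel.Parts
import Vale.Agent.P204.General.Basic.Orient

/-!
# P204: the smoothing keeps test forms and tends to the identity
-/

open MeasureTheory Matrix Filter Topology Set
open scoped ContDiff

namespace Vale.Agent.P204.Kernel

open Vale.Agent.P204.General Vale.Agent.P204.Torus

variable {N K : ℕ} {A : Atlas N K} {J : Amb N → MN N} {r d c₀ C₀ : ℝ}

/-- The smoothing near the centre of a chart, continued to width zero. -/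
noncomputable def sCh (A : Atlas N K) (r d : ℝ) (a : Amb N → MN N) (c : Fin K) (i j : Fin 4)
    (x : ℝ × Pt) : ℝ :=
  ∑ k, ∑ l, opS (kerf A c r d k l i j) (hco A c a k l) x

theorem sCh_smooth (hG : GoodR A r d c₀ C₀) {a : Amb N → MN N} (ha : IsTestX A a) (c : Fin K)
    (i j : Fin 4) : ContDiffOn ℝ ∞ (sCh A r d a c i j) (wdSet univ) := by
  obtain ⟨c₁, hc₁, hg⟩ := kerf_gauss (c := c) hG
  exact ContDiffOn.sum fun k _ => ContDiffOn.sum fun l _ =>
    opS_smooth hc₁ (hg k l i j) (hco_smooth A c ha k l).1 (hco_smooth A c ha k l).2.2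

theorem sCh_eq (hJ : IsACS A J) (hG : GoodR A r d c₀ C₀) {a : Amb N → MN N} (ha : IsTestX A a)
    (c : Fin K) {q : Pt} (hq : q ∈ Metric.closedBall 0 (5 / 8)) {σ : ℝ}
    (hσ : σ ∈ Ioc (0 : ℝ) (1 / 2)) (i j : Fin 4) :
    A.pull c (GS A r d σ a) q i j = sCh A r d a c i j (σ, q) :=
  pull_GS hJ hG ha.contX hσ.1 (hσ.2.trans (by norm_num)) hq i j

theorem sCh_zero (hG : GoodR A r d c₀ C₀) {a : Amb N → MN N} (ha : IsTestX A a) (c : Fin K)
    {q : Pt} (hq : q ∈ Metric.closedBall 0 (5 / 8)) (i j : Fin 4) :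
    sCh A r d a c i j (0, q) = A.pull c a q i j :=
  sum_opS_zero hG ha.contX c hq i j

/-- Near every point of a chart the smoothing continues smoothly to width zero. -/
theorem exists_local (hJ : IsACS A J) (hG : GoodR A r d c₀ C₀) {a : Amb N → MN N}
    (ha : IsTestX A a) (c : Fin K) {p₀ : Pt} (hp₀ : p₀ ∈ box) (j k : Fin 4) :
    ∃ U : Set Pt, IsOpen U ∧ p₀ ∈ U ∧ U ⊆ box ∧ ∃ S : ℝ × Pt → ℝ, ContDiffOn ℝ ∞ S (wdSet U) ∧
      (∀ σ ∈ Ioc (0 : ℝ) (1 / 2), ∀ p ∈ U, A.pull c (GS A r d σ a) p j k = S (σ, p)) ∧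
      ∀ p ∈ U, A.pull c a p j k = S (0, p) := by
  obtain ⟨e, -, q₀, hq₀, he⟩ := A.exists_chart (A.psi_mem c p₀ hp₀)
  obtain ⟨O, hO, hXO⟩ := A.open_image e
  have htc : ContDiff ℝ ∞ (A.trans e c) := by
    have h := contDiff_pi.1 (A.psi_smooth c)
    refine contDiff_pi.2 fun i => ?_
    simp only [Atlas.trans, Atlas.phi, mulVec, dotProduct, Pi.sub_apply]
    fun_prop
  set U := box ∩ A.psi c ⁻¹' O ∩ A.trans e c ⁻¹' Metric.ball 0 (5 / 8)
  have hUo : IsOpen U := ((isOpen_box.inter (hO.preimage (A.psi_cont c)))).inter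
    (Metric.isOpen_ball.preimage htc.continuous)
  have himg : ∀ p ∈ U, A.psi c p ∈ A.psi e '' box := fun p hp =>
    hXO ▸ ⟨A.psi_mem c p hp.1.1, hp.1.2⟩
  have hp₀U : p₀ ∈ U := by
    refine ⟨⟨hp₀, ?_⟩, ?_⟩
    · have h : A.psi c p₀ ∈ A.psi e '' box := ⟨q₀, closedBall_subset_box hq₀, he⟩
      rw [← hXO] at h
      exact h.2
    · show A.phi e (A.psi c p₀) ∈ Metric.ball (0 : Pt) (5 / 8)
      rw [← he, A.phi_psi e (closedBall_subset_box hq₀)]
      exact Metric.closedBall_subset_ball (by norm_num) hq₀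
  set T : Pt → M4 := fun p => A.L e * A.dmat c p
  set S : ℝ × Pt → ℝ := fun x => ∑ m, ∑ n,
    T x.2 m j * T x.2 n k * sCh A r d a e m n (x.1, A.trans e c x.2)
  have hball : ∀ p ∈ U, A.trans e c p ∈ Metric.closedBall (0 : Pt) (5 / 8) := fun p hp =>
    Metric.ball_subset_closedBall hp.2
  have key : ∀ (F : Amb N → MN N), ∀ p ∈ U, A.pull c F p j k =
      ∑ m, ∑ n, T p m j * T p n k * A.pull e F (A.trans e c p) m n := fun F p hp => by
    rw [A.pull_trans e c hp.1.1 (himg p hp)]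
    show ((T p)ᵀ * A.pull e F (A.trans e c p) * T p) j k = _
    simp only [Matrix.mul_apply, Matrix.transpose_apply, Finset.sum_mul]
    rw [Finset.sum_comm]
    exact Finset.sum_congr rfl fun m _ => Finset.sum_congr rfl fun n _ => by ring
  refine ⟨U, hUo, hp₀U, fun p hp => hp.1.1, S, ?_, fun σ hσ p hp => ?_, fun p hp => ?_⟩
  · refine ContDiffOn.sum fun m _ => ContDiffOn.sum fun n _ => ?_
    have hT : ∀ m j, ContDiff ℝ ∞ fun x : ℝ × Pt => T x.2 m j := fun m j => by
      have h := fun l => A.dmat_smooth c l j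
      simp only [T, Matrix.mul_apply]
      exact ContDiff.sum fun l _ => contDiff_const.mul ((h l).comp contDiff_snd)
    refine ((hT m j).mul (hT n k)).contDiffOn.mul ?_
    exact (sCh_smooth hG ha e m n).comp (contDiff_fst.prodMk (htc.comp contDiff_snd)).contDiffOn
      fun x hx => ⟨hx.1, mem_univ _⟩
  · rw [key _ p hp]
    simp only [sCh_eq hJ hG ha e (hball p hp) hσ, S]
  · rw [key _ p hp]
    simp only [S, sCh_zero hG ha e (hball p hp)]

theorem pull_GE (hJ : IsACS A J) (hG : GoodR A r d c₀ C₀) {a : Amb N → MN N} (ha : IsTestX A a)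
    {ε : ℝ} (hε : 0 < ε) (hε4 : ε ≤ 1 / 4) (c : Fin K) (p : Pt) (j k : Fin 4) :
    A.pull c (GE A r d ε a) p j k =
      ∫ t, omW ε t * A.pull c (GS A r d (ε * Real.sqrt t) a) p j k := by
  have hi : ∀ b l, Integrable fun t =>
      omW ε t * (A.dmat c p b j * GS A r d (ε * Real.sqrt t) a (A.psi c p) b l * A.dmat c p l k) :=
    fun b l => by
      refine (((integrable_GS hJ hG ha.contX (A.psi c p) b l hε hε4).const_mul
        (A.dmat c p b j)).mul_const (A.dmat c p l k)).congr (ae_of_all _ fun t => ?_)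
      ring
  simp only [Atlas.pull, Atlas.pullAt_apply, GE, Matrix.of_apply, Finset.sum_mul, Finset.mul_sum]
  rw [integral_finsetSum _ fun l _ => integrable_finsetSum _ fun b _ => hi b l]
  refine Finset.sum_congr rfl fun l _ => ?_
  rw [integral_finsetSum _ fun b _ => hi b l]
  refine Finset.sum_congr rfl fun b _ => ?_
  rw [← integral_const_mul, ← integral_mul_const]
  exact integral_congr_ae (ae_of_all _ fun t => by ring)

theorem avg_congr {ε : ℝ} (hε : 0 < ε) (hε4 : ε ≤ 1 / 4) {f g : ℝ → ℝ}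
    (h : ∀ s ∈ Ioc (0 : ℝ) (1 / 2), f s = g s) :
    ∫ t, omW ε t * f (ε * Real.sqrt t) = ∫ t, omW ε t * g (ε * Real.sqrt t) := by
  refine integral_congr_ae (ae_of_all _ fun t => ?_)
  show omW ε t * f _ = omW ε t * g _
  rcases eq_or_ne (omW ε t) 0 with h0 | h0
  · simp [h0]
  · rw [h _ (width_mem hε hε4 (omW_ne h0))]

/-- In a chart the superposition is an average of the continuation. -/
theorem pull_GE_avg (hJ : IsACS A J) (hG : GoodR A r d c₀ C₀) {a : Amb N → MN N} (ha : IsTestX A a)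
    {ε : ℝ} (hε : 0 < ε) (hε4 : ε ≤ 1 / 4) (c : Fin K) {p : Pt} (j k : Fin 4) {U : Set Pt}
    {S : ℝ × Pt → ℝ} (hS : ContinuousOn S (wdSet U)) (hp : p ∈ U)
    (h : ∀ σ ∈ Ioc (0 : ℝ) (1 / 2), A.pull c (GS A r d σ a) p j k = S (σ, p)) :
    A.pull c (GE A r d ε a) p j k = ∫ s, S (s, p) ∂omNu ε := by
  rw [pull_GE hJ hG ha hε hε4, integral_omNu hε hε4 (continuousOn_slice hS hp)]
  exact avg_congr (f := fun s => A.pull c (GS A r d s a) p j k) (g := fun s => S (s, p)) hε hε4 h

theorem GE_skew (a : Amb N → MN N) (ε : ℝ) (z : Amb N) :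
    (GE A r d ε a z)ᵀ = -GE A r d ε a z := by
  ext u w
  simp only [GE, Matrix.transpose_apply, Matrix.neg_apply, Matrix.of_apply, ← integral_neg]
  refine integral_congr_ae (ae_of_all _ fun t => ?_)
  show omW ε t * _ = -(omW ε t * _)
  have h := congrFun (congrFun (GS_skew A r d (ε * Real.sqrt t) a z) u) w
  rw [Matrix.transpose_apply, Matrix.neg_apply] at h
  rw [h, mul_neg]

theorem GE_test (hJ : IsACS A J) (hG : GoodR A r d c₀ C₀) {a : Amb N → MN N} (ha : IsTestX A a)
    {ε : ℝ} (hε : 0 < ε) (hε4 : ε ≤ 1 / 4) : IsTestX A (GE A r d ε a) := by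
  refine ⟨GE_skew a ε, fun c j k p hp => ?_⟩
  obtain ⟨U, hU, hpU, -, S, hS, hSe, -⟩ := exists_local hJ hG ha c hp j k
  refine ((((avg_deriv hU hS hε hε4).1).contDiffAt (hU.mem_nhds hpU)).congr_of_eventuallyEq
    (eventually_of_mem (hU.mem_nhds hpU) fun q hq => ?_)).contDiffWithinAt
  exact pull_GE_avg hJ hG ha hε hε4 c j k hS.continuousOn hq fun σ hσ => hSe σ hσ q hq

theorem deriv_GE (hJ : IsACS A J) (hG : GoodR A r d c₀ C₀) {a : Amb N → MN N} (ha : IsTestX A a)
    (l : List (Fin 4)) (c : Fin K) (j k : Fin 4) {ε : ℝ} (hε : 0 < ε) (hε4 : ε ≤ 1 / 4) {p : Pt}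
    (hp : p ∈ box) : pdL l (fun q => A.pull c (GE A r d ε a) q j k) p =
      ∫ t, omW ε t * pdL l (fun q => A.pull c (GS A r d (ε * Real.sqrt t) a) q j k) p := by
  obtain ⟨U, hU, hpU, -, S, hS, hSe, -⟩ := exists_local hJ hG ha c hp j k
  have he : (fun q => A.pull c (GE A r d ε a) q j k) =ᶠ[𝓝 p] fun q => ∫ s, S (s, q) ∂omNu ε :=
    eventually_of_mem (hU.mem_nhds hpU) fun q hq =>
      pull_GE_avg hJ hG ha hε hε4 c j k hS.continuousOn hq fun σ hσ => hSe σ hσ q hq
  rw [(pdL_congr_nhds he l).eq_of_nhds, (avg_deriv hU hS hε hε4).2 l p hpU, integral_omNu hε hε4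
    (continuousOn_slice (contDiffOn_dqL (isOpen_wdSet hU) hS l).continuousOn hpU)]
  refine avg_congr (f := fun s => dqL l S (s, p))
    (g := fun s => pdL l (fun q => A.pull c (GS A r d s a) q j k) p) hε hε4 fun s hs => ?_
  exact (pdL_eq_dqL (isOpen_wdSet hU) hS l ⟨Icc_half_subset (Ioc_subset_Icc_self hs), hpU⟩
    (eventually_of_mem (hU.mem_nhds hpU) fun q hq => hSe s hs q hq)).symm

theorem deriv_GS_bound (hJ : IsACS A J) (hG : GoodR A r d c₀ C₀) {a : Amb N → MN N}
    (ha : IsTestX A a) (l : List (Fin 4)) (c : Fin K) (j k : Fin 4) :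
    ∃ B, ∀ σ, 0 < σ → σ ≤ 1 / 2 → ∀ p ∈ Metric.closedBall (0 : Pt) (1 / 2),
      |pdL l (fun q => A.pull c (GS A r d σ a) q j k) p| ≤ B := by
  set F : ℝ × Pt → ℝ := fun x => if 0 < x.1 then
    pdL l (fun q => A.pull c (GS A r d x.1 a) q j k) x.2 else pdL l (fun q => A.pull c a q j k) x.2
  have hF : ContinuousOn F (Icc (0 : ℝ) (1 / 2) ×ˢ Metric.closedBall (0 : Pt) (1 / 2)) := by
    rintro ⟨s₀, p₀⟩ ⟨hs₀, hp₀⟩
    obtain ⟨U, hU, hpU, -, S, hS, hSe, hS0⟩ :=
      exists_local hJ hG ha c (closedBall_subset_box hp₀) j k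
    have hval : ∀ s ∈ Icc (0 : ℝ) (1 / 2), ∀ p ∈ U, F (s, p) = dqL l S (s, p) := fun s hs p hp => by
      rcases eq_or_lt_of_le hs.1 with rfl | hpos
      · simp only [F, lt_irrefl, if_false]
        exact pdL_eq_dqL (isOpen_wdSet hU) hS l ⟨Icc_half_subset hs, hp⟩
          (eventually_of_mem (hU.mem_nhds hp) fun q hq => hS0 q hq)
      · simp only [F, hpos, if_true]
        exact pdL_eq_dqL (isOpen_wdSet hU) hS l ⟨Icc_half_subset hs, hp⟩
          (eventually_of_mem (hU.mem_nhds hp) fun q hq => hSe s ⟨hpos, hs.2⟩ q hq)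
    have hc := ((contDiffOn_dqL (isOpen_wdSet hU) hS l).continuousOn.continuousAt
      ((isOpen_wdSet hU).mem_nhds (show (s₀, p₀) ∈ wdSet U from ⟨Icc_half_subset hs₀, hpU⟩)))
    refine hc.continuousWithinAt.congr_of_eventuallyEq ?_ (hval s₀ hs₀ p₀ hpU)
    filter_upwards [self_mem_nhdsWithin, mem_nhdsWithin_of_mem_nhds
      ((hU.preimage continuous_snd).mem_nhds (show (s₀, p₀).2 ∈ U from hpU))] with x hx hxU
    exact hval x.1 hx.1 x.2 hxU
  obtain ⟨B, hB⟩ := (isCompact_Icc.prod (isCompact_closedBall _ _)).exists_bound_of_continuousOn hF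
  refine ⟨B, fun σ hσ hσ' p hp => ?_⟩
  have h := hB (σ, p) ⟨⟨hσ.le, hσ'⟩, hp⟩
  simpa only [F, hσ, if_true, Real.norm_eq_abs] using h

/-- The weights of the anti-invariant part. -/
noncomputable def antiW (jm : M4) (i k m n : Fin 4) : ℝ :=
  (2 : ℝ)⁻¹ * ((if m = i then 1 else 0) * (if n = k then 1 else 0) - jm m i * jm n k)

theorem antiP_entry (jm M : M4) (i k : Fin 4) :
    antiP jm M i k = ∑ m, ∑ n, antiW jm i k m n * M m n := by
  simp only [antiP, antiW, Matrix.smul_apply, Matrix.sub_apply, Matrix.mul_apply,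
    Matrix.transpose_apply, smul_eq_mul, mul_sub, sub_mul, Finset.sum_sub_distrib, Finset.mul_sum,
    Finset.sum_mul]
  congr 1
  · simp [Finset.sum_ite_eq']
  · rw [Finset.sum_comm]
    exact Finset.sum_congr rfl fun m _ => Finset.sum_congr rfl fun n _ => by ring

open Classical in
/-- The cut anti-invariant coefficient of the smoothing, continued to width zero. -/
noncomputable def gCut (A : Atlas N K) (J : Amb N → MN N) (r d : ℝ) (a : Amb N → MN N) (c : Fin K)
    (i k : Fin 4) (x : ℝ × Pt) : ℝ :=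
  if x.2 ∈ Metric.ball (0 : Pt) (5 / 8) then
    ∑ m, ∑ n, A.chi c (A.psi c x.2) * antiW (A.jc J c x.2) i k m n * sCh A r d a c m n x else 0

theorem gCut_supp (a : Amb N → MN N) (c : Fin K) (i k : Fin 4) (s : ℝ) {q : Pt}
    (hq : q ∉ Metric.closedBall (0 : Pt) (1 / 2)) : gCut A J r d a c i k (s, q) = 0 := by
  simp only [gCut]
  split_ifs with h
  · have hb : q ∈ box := mem_ball_zero_iff.2 (by linarith [mem_ball_zero_iff.1 h])
    have hz : A.chi c (A.psi c q) = 0 := by
      by_contra hne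
      obtain ⟨p, hp, he⟩ := A.chi_supp c _ (A.psi_mem c q hb) hne
      rw [← A.phi_psi c hb, ← he, A.phi_psi c (closedBall_subset_box hp)] at hq
      exact hq hp
    simp [hz]
  · rfl

theorem gCut_smooth (hJ : IsACS A J) (hG : GoodR A r d c₀ C₀) {a : Amb N → MN N} (ha : IsTestX A a)
    (c : Fin K) (i k : Fin 4) : ContDiffOn ℝ ∞ (gCut A J r d a c i k) (wdSet univ) := by
  rintro ⟨s, q⟩ hx
  by_cases hq : q ∈ Metric.closedBall (0 : Pt) (1 / 2)
  · have hqB : q ∈ Metric.ball (0 : Pt) (5 / 8) := Metric.closedBall_subset_ball (by norm_num) hq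
    have hsub : Metric.ball (0 : Pt) (5 / 8) ⊆ box := Metric.ball_subset_ball (by norm_num)
    have h : ContDiffOn ℝ ∞ (fun x : ℝ × Pt => ∑ m, ∑ n,
        A.chi c (A.psi c x.2) * antiW (A.jc J c x.2) i k m n * sCh A r d a c m n x)
        (wdSet (Metric.ball 0 (5 / 8))) := by
      refine ContDiffOn.sum fun m _ => ContDiffOn.sum fun n _ => ?_
      refine ((((A.chi_smooth c).comp (A.psi_smooth c)).comp contDiff_snd).contDiffOn.mul ?_).mul
        ((sCh_smooth hG ha c m n).mono (Set.prod_mono le_rfl (subset_univ _)))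
      have hj : ∀ u v, ContDiffOn ℝ ∞ (fun x : ℝ × Pt => A.jc J c x.2 u v)
          (wdSet (Metric.ball 0 (5 / 8))) := fun u v =>
        (hJ.smooth c u v).comp contDiffOn_snd fun x hx => hsub hx.2
      exact contDiffOn_const.mul (contDiffOn_const.sub ((hj m i).mul (hj n k)))
    have hn := (isOpen_wdSet Metric.isOpen_ball).mem_nhds
      (show (s, q) ∈ wdSet (Metric.ball 0 (5 / 8)) from ⟨hx.1, hqB⟩)
    exact ((h.contDiffAt hn).congr_of_eventuallyEq (eventually_of_mem hn fun y hy => by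
      simp only [gCut, hy.2, if_true])).contDiffWithinAt
  · refine ((contDiffAt_const (c := (0 : ℝ))).congr_of_eventuallyEq ?_).contDiffWithinAt
    exact eventually_of_mem ((Metric.isClosed_closedBall.isOpen_compl.preimage
      continuous_snd).mem_nhds hq) fun y hy => gCut_supp a c i k y.1 hy

theorem cutCoef_GE (hJ : IsACS A J) (hG : GoodR A r d c₀ C₀) {a : Amb N → MN N} (ha : IsTestX A a)
    {ε : ℝ} (hε : 0 < ε) (hε4 : ε ≤ 1 / 4) (c : Fin K) (i k : Fin 4) (p : Pt) :
    A.cutCoef c (fun x => antiX J x (GE A r d ε a x - a x)) i k p =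
      (∫ s, gCut A J r d a c i k (s, p) ∂omNu ε) - gCut A J r d a c i k (0, p) := by
  by_cases hp : p ∈ Metric.ball (0 : Pt) (5 / 8)
  · have hb : p ∈ box := Metric.ball_subset_ball (by norm_num) hp
    have hq := Metric.ball_subset_closedBall hp
    simp only [gCut, hp, if_true, Atlas.cutCoef, hb]
    rw [Atlas.pull, pullAt_antiX A hJ c hb, antiP_entry, Finset.mul_sum]
    have := omNu_finite ε
    have hint : ∀ m n, Integrable (fun s => A.chi c (A.psi c p) * antiW (A.jc J c p) i k m n *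
        sCh A r d a c m n (s, p)) (omNu ε) := fun m n => by
      refine Integrable.const_mul ?_ _
      have hc := (continuousOn_slice (sCh_smooth hG ha c m n).continuousOn (mem_univ p)).mono
        Icc_half_subset
      obtain ⟨B, hB⟩ := isCompact_Icc.exists_bound_of_continuousOn hc
      have hm := hc.aestronglyMeasurable (μ := omNu ε) measurableSet_Icc
      rw [Measure.restrict_eq_self_of_ae_mem (ae_omNu hε hε4)] at hm
      exact Integrable.of_bound hm B ((ae_omNu hε hε4).mono fun s hs => hB s hs)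
    rw [integral_finsetSum _ fun m _ => integrable_finsetSum _ fun n _ => hint m n,
      ← Finset.sum_sub_distrib]
    refine Finset.sum_congr rfl fun m _ => ?_
    rw [integral_finsetSum _ fun n _ => hint m n, Finset.mul_sum, ← Finset.sum_sub_distrib]
    refine Finset.sum_congr rfl fun n _ => ?_
    rw [integral_const_mul, sCh_zero hG ha c hq,
      ← pull_GE_avg hJ hG ha hε hε4 c m n (sCh_smooth hG ha c m n).continuousOn (mem_univ p)
        fun σ hσ => sCh_eq hJ hG ha c hq hσ m n]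
    simp only [Atlas.pull, Atlas.pullAt, Matrix.mul_sub, Matrix.sub_mul, Matrix.sub_apply]
    ring
  · have hz : ∀ s, gCut A J r d a c i k (s, p) = 0 := fun s => by simp [gCut, hp]
    simp only [hz, integral_zero, sub_zero, Atlas.cutCoef]
    split_ifs with hb
    · have hz : A.chi c (A.psi c p) = 0 := by
        by_contra hne
        obtain ⟨q, hq, he⟩ := A.chi_supp c _ (A.psi_mem c p hb) hne
        rw [← A.phi_psi c hb, ← he, A.phi_psi c (closedBall_subset_box hq)] at hp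
        exact hp (Metric.closedBall_subset_ball (by norm_num) hq)
      simp [hz]
    · rfl

/-- The smoothing keeps test forms and tends to the identity. -/
theorem approxStmt : ApproxStmt := by
  intro N K A J r d c₀ C₀ hJ hG
  refine ⟨1 / 4, by norm_num, fun a ha => ⟨fun l c j k => ⟨?_, fun ε hε hε4 p hp =>
    deriv_GE hJ hG ha l c j k hε hε4 hp⟩, fun ε hε hε4 => GE_test hJ hG ha hε hε4, ?_⟩⟩
  · obtain ⟨B, hB⟩ := deriv_GS_bound hJ hG ha l c j k
    refine ⟨B, fun σ hσ hσ' => hB σ hσ (hσ'.trans_eq ?_)⟩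
    rw [show (1 / 4 : ℝ) = (1 / 2) ^ 2 by norm_num, Real.sqrt_sq (by norm_num)]
  · have hsmall : ∀ᶠ ε in 𝓝[>] (0 : ℝ), 0 < ε ∧ ε ≤ 1 / 4 :=
      eventually_of_mem (inter_mem self_mem_nhdsWithin
        (mem_nhdsWithin_of_mem_nhds (Iic_mem_nhds (by norm_num : (0 : ℝ) < 1 / 4))))
        fun ε hε => ⟨hε.1, hε.2⟩
    have h := tendsto_finsetSum (s := (Finset.univ : Finset (Fin K))) fun c _ =>
      tendsto_finsetSum (s := (Finset.univ : Finset (Fin 4))) fun i _ =>
        tendsto_finsetSum (s := (Finset.univ : Finset (Fin 4))) fun k _ =>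
          tendsto_sobR 3 (gCut_smooth hJ hG ha c i k) fun s q hq => gCut_supp a c i k s hq
    simp only [Finset.sum_const_zero] at h
    refine h.congr' (hsmall.mono fun ε hε => ?_)
    refine Finset.sum_congr rfl fun c _ => Finset.sum_congr rfl fun i _ =>
      Finset.sum_congr rfl fun k _ => ?_
    congr 1
    funext p
    exact (cutCoef_GE hJ hG ha hε.1 hε.2 c i k p).symm

end Vale.Agent.P204.Kernel
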