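import Vale.Agent.P204.Kernel.LocalRep
import Vale.Agent.P204.Kernel.Profile
import Vale.Agent.P204.Kernel.Approx.Avg

/-!
# P204: the smoothing in a chart, up to width zero

In a chart the smoothing of a test form extends smoothly to width zero, with the form as value.
The ambient entries of the smoothing are integrable against the subordination weight.
-/

open MeasureTheory Matrix Filter Topology Set
open scoped ContDiff

namespace Vale.Agent.P204.Kernel

open Vale.Agent.P204.General Vale.Agent.P204.Torus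

/-- The smoothing of a family, as a function of width and point. -/
noncomputable def opS (f : X3 → ℝ) (h : Pt → ℝ) (x : ℝ × Pt) : ℝ :=
  ∫ w, f (x, w) * h (x.2 + x.1 • w)

theorem opS_eq (f : X3 → ℝ) (h : Pt → ℝ) (σ : ℝ) (q : Pt) :
    opS f h (σ, q) = Op (fam f) σ h q := rfl

theorem opS_smooth {f : X3 → ℝ} {c : ℝ} (hc : 0 < c) (hf : GaussB S3 c f) {h : Pt → ℝ}
    (hh : ContDiff ℝ ∞ h) (hb : BddDerivs h) : ContDiffOn ℝ ∞ (opS f h) (wdSet univ) := by
  have hg : PolyD S3 fun x : X3 => x.1.2 + x.1.1 • x.2 :=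
    (PolyD.linear ((ContinuousLinearMap.snd ℝ ℝ Pt).comp
      (ContinuousLinearMap.fst ℝ (ℝ × Pt) Pt))).add (polyB_sigma.smul
        (PolyB.linear (ContinuousLinearMap.snd ℝ (ℝ × Pt) Pt) zero_le_one fun x _ => by simp)).polyD
  obtain ⟨hH, hHb⟩ := GaussB.poly_smul hc (PolyB.comp hh hb hg) hf
  choose C hC hCb using hHb
  refine ((param_integral (μ := (volume : Measure Pt)) (U := wdSet univ) (W := univ)
    (isOpen_wdSet isOpen_univ) isOpen_univ (ae_of_all _ fun _ => trivial) hH.contDiffOn
    (b := fun n w => C n * gw (c / 2) w) (fun n => (integrable_gw (by positivity)).const_mul _)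
    fun n => ae_of_all _ fun w x hx => ?_).1).congr fun x _ => ?_
  · exact hCb n (x, w) (show |x.1| ≤ 1 from abs_le.2 ⟨hx.1.1.le, hx.1.2.le⟩)
  · exact integral_congr_ae (ae_of_all _ fun w => mul_comm _ _)

theorem integrable_gauss_slice {f : X3 → ℝ} {c : ℝ} (hc : 0 < c) (hf : GaussB S3 c f) (q : Pt) :
    Integrable fun w => f (((0 : ℝ), q), w) := by
  obtain ⟨C, hC, hb⟩ := hf.2 0
  refine ((integrable_gw hc).const_mul C).mono'
    (hf.1.continuous.comp (by fun_prop : Continuous fun w : Pt => ((((0 : ℝ), q), w) : X3))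
      ).aestronglyMeasurable (ae_of_all _ fun w => ?_)
  simpa [norm_iteratedFDeriv_zero, gw] using hb (((0 : ℝ), q), w) (show |(0 : ℝ)| ≤ 1 by norm_num)

variable {N K : ℕ} {A : Atlas N K} {J : Amb N → MN N} {r d c₀ C₀ : ℝ}

/-- At width zero the chart operators give back the form. -/
theorem sum_opS_zero (hG : GoodR A r d c₀ C₀) {a : Amb N → MN N} (ha : IsContX A a) (c : Fin K)
    {q : Pt} (hq : q ∈ Metric.closedBall 0 (5 / 8)) (i j : Fin 4) :
    ∑ k, ∑ l, opS (kerf A c r d k l i j) (hco A c a k l) (0, q) = A.pull c a q i j := by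
  have hqn := mem_closedBall_zero_iff.1 hq
  have hqb : q ∈ box := mem_ball_zero_iff.2 (by linarith)
  obtain ⟨c₁, hc₁, hg⟩ := kerf_gauss (c := c) hG
  have hh : (A.pull c a q)ᵀ = -A.pull c a q := pullAt_skew A _ _ (ha.skew _)
  have hC : ∀ k l, hco A c a k l q = A.pull c a q k l := fun k l => by
    rw [hco, bC.one_of_mem_closedBall (mem_closedBall_zero_iff.2 (by
      show ‖q‖ ≤ 3 / 4; linarith)), one_mul]
  have hi : ∀ k l, Integrable fun w => A.pull c a q k l * kerf A c r d k l i j ((0, q), w) :=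
    fun k l => (integrable_gauss_slice hc₁ (hg k l i j) q).const_mul _
  have e : ∀ k l, opS (kerf A c r d k l i j) (hco A c a k l) (0, q) =
      ∫ w, A.pull c a q k l * kerf A c r d k l i j ((0, q), w) := fun k l =>
    integral_congr_ae (ae_of_all _ fun w => by
      show _ * hco A c a k l (q + (0 : ℝ) • w) = _
      rw [zero_smul, add_zero, hC, mul_comm])
  simp only [e]
  rw [Finset.sum_congr rfl fun k _ => (integral_finsetSum _ fun l _ => hi k l).symm,
    ← integral_finsetSum _ fun k _ => integrable_finsetSum _ fun l _ => hi k l]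
  simp only [sum_kerf_zero hG q _ hh i j, bA.one_of_mem_closedBall hq, one_mul]
  have hp : ∀ z : Pt, z ≠ 0 → 0 < z ⬝ᵥ gram A c q *ᵥ z := fun z hz => by
    rw [gram_quad]
    refine lt_of_lt_of_le ?_ (norm_sq_le_dot _)
    refine pow_pos (norm_pos_iff.2 fun h => hz ?_) 2
    have := A.L_mulVec_dmat c hqb z
    rwa [h, mulVec_zero, eq_comm] at this
  have hI := integral_gE (gram_symm A c) hp
  simp only [gE] at hI
  rw [integral_mul_const, integral_const_mul, hI, vs]
  have hdet := gram_det_pos A c hqb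
  have := Real.sqrt_pos.2 hdet
  field_simp
  ring

theorem sdist_nonneg' (c : Fin K) (p : Pt) (z : Amb N) : 0 ≤ sdist A c p z := by
  rw [sdist, gram_quad]
  exact Finset.sum_nonneg fun i _ => mul_self_nonneg _

theorem continuousAt_profiles (hd : 0 < d) (s : ℝ) {σ : ℝ} (hσ : 0 < σ) :
    ContinuousAt (fun σ => gProf d σ s) σ ∧ ContinuousAt (fun σ => hProf d σ s) σ := by
  have h4 : (4 * σ ^ 2) ≠ 0 := by positivity
  have hpi : ((4 * Real.pi * σ ^ 2) ^ 2) ≠ 0 := by positivity
  refine ⟨by unfold gProf; fun_prop (disch := assumption), ?_⟩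
  have hH : Continuous fun σ => Hh d (σ, s) := (contDiff_Hh hd).continuous.comp (by fun_prop)
  have hs4 : σ ^ 4 ≠ 0 := by positivity
  have h : ContinuousAt (fun σ => σ ^ 2 * 2⁻¹ * Hh d (σ, s) * ((4 * Real.pi) ^ 2)⁻¹ *
      Real.exp (-s / (4 * σ ^ 2)) / σ ^ 4) σ := by fun_prop (disch := assumption)
  refine h.congr (eventually_of_mem (Ioi_mem_nhds hσ) fun τ (hτ : 0 < τ) => ?_)
  rw [eq_comm, eq_div_iff (by positivity), mul_comm, hProf_eq hd hτ]

/-- The kernel entries are continuous in the width and at most a multiple of its fourth negative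
power. -/
theorem cCoef_width (hG : GoodR A r d c₀ C₀) (z u w : Amb N) (c : Fin K) (i k : Fin 4) :
    ∃ B : ℝ, 0 ≤ B ∧ ∀ p ∈ Metric.closedBall (0 : Pt) (1 / 2), ∀ σ : ℝ, 0 < σ →
      |cCoef A r d σ u w c i k (z, p)| ≤ B * (1 / σ ^ 4 + 1 / σ ^ 2) ∧
      ContinuousAt (fun σ => cCoef A r d σ u w c i k (z, p)) σ := by
  have hB := baseSmooth_of_mapsTo A c (P := fun p : Pt => p) (s := box) contDiffOn_id fun x hx => hx
  have h1 := xx_smoothOn A c hB (Z := fun _ => z) contDiffOn_const
  have h2 := yy_smoothOn A c hB (U := fun _ => u) contDiffOn_const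
  have h3 := yy_smoothOn A c hB (U := fun _ => w) contDiffOn_const
  have h4 := hB.wop
  have hD : ContDiffOn ℝ ∞ (fun p => vs A c p *
      det4 (xx A c i p z) (xx A c k p z) (yy A c p u) (yy A c p w)) box := by
    refine hB.vs.mul ?_
    simp only [det4_expand]; fun_prop
  have hE : ContDiffOn ℝ ∞ (fun p => vs A c p *
      curvE (wop A c i p) (wop A c k p) (yy A c p u) (yy A c p w)) box := by
    refine hB.vs.mul ?_
    simp only [curvE, det4_expand]; fun_prop
  have hsub : Metric.closedBall (0 : Pt) (1 / 2) ⊆ box := closedBall_subset_box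
  obtain ⟨B₁, hB₁⟩ := (isCompact_closedBall _ _).exists_bound_of_continuousOn (hD.continuousOn.mono hsub)
  obtain ⟨B₂, hB₂⟩ := (isCompact_closedBall _ _).exists_bound_of_continuousOn (hE.continuousOn.mono hsub)
  refine ⟨max B₁ 0 + 2 * max B₂ 0, by positivity, fun p hp σ hσ => ?_⟩
  set D := vs A c p * det4 (xx A c i p z) (xx A c k p z) (yy A c p u) (yy A c p w)
  set E := vs A c p * curvE (wop A c i p) (wop A c k p) (yy A c p u) (yy A c p w)
  set s := sdist A c p z
  have heq : ∀ σ, cCoef A r d σ u w c i k (z, p) =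
      chartBump p * etaF r (z - A.psi c p) * (gProf d σ s * D + hProf d σ s * E) := fun σ => by
    simp only [cCoef, loc22, k22, Matrix.of_apply, D, E, s]; ring
  have hs : 0 ≤ s := sdist_nonneg' c p z
  obtain ⟨hg, hh⟩ := continuousAt_profiles hG.d_pos s hσ
  refine ⟨?_, ?_⟩
  · have hex : Real.exp (-s / (4 * σ ^ 2)) ≤ 1 :=
      Real.exp_le_one_iff.2 (div_nonpos_of_nonpos_of_nonneg (by linarith) (by positivity))
    have g1 : |gProf d σ s| ≤ 1 / σ ^ 4 :=
      (gProf_bound d σ s).trans (div_le_div_of_nonneg_right hex (by positivity))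
    have g2 : |hProf d σ s| ≤ 2 * (1 / σ ^ 2) :=
      (hProf_bound hG.d_pos hσ s).trans (mul_le_mul_of_nonneg_left
        (div_le_div_of_nonneg_right hex (by positivity)) (by norm_num))
    have e1 : |D| ≤ max B₁ 0 := (hB₁ p hp).trans (le_max_left _ _)
    have e2 : |E| ≤ max B₂ 0 := (hB₂ p hp).trans (le_max_left _ _)
    have hm := etaF_mem r (z - A.psi c p)
    rw [heq, abs_mul, abs_mul, abs_of_nonneg chartBump.nonneg, abs_of_nonneg hm.1]
    refine (mul_le_of_le_one_left (abs_nonneg _)
      (mul_le_one₀ chartBump.le_one hm.1 hm.2)).trans ((abs_add_le _ _).trans ?_)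
    rw [abs_mul (gProf d σ s), abs_mul (hProf d σ s)]
    have := mul_le_mul g1 e1 (abs_nonneg _) (by positivity)
    have := mul_le_mul g2 e2 (abs_nonneg _) (by positivity)
    have : 0 ≤ max B₁ 0 * (1 / σ ^ 2) := by positivity
    have : 0 ≤ 2 * max B₂ 0 * (1 / σ ^ 4) := by positivity
    nlinarith
  · simp only [heq]
    exact continuousAt_const.mul ((hg.mul continuousAt_const).add (hh.mul continuousAt_const))

/-- Ambient entries of the smoothing can be superposed. -/
theorem integrable_GS (hJ : IsACS A J) (hG : GoodR A r d c₀ C₀) {a : Amb N → MN N}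
    (ha : IsContX A a) (z : Amb N) (u w : Fin N) {ε : ℝ} (hε : 0 < ε) (hε4 : ε ≤ 1 / 4) :
    Integrable fun t => omW ε t * GS A r d (ε * Real.sqrt t) a z u w := by
  set U : Amb N := Pi.single u 1
  set W : Amb N := Pi.single w 1
  have hGS : ∀ σ, GS A r d σ a z u w = ∑ c, ∑ i, ∑ k, ∫ p in box,
      cWeight A a c i k p • cCoef A r d σ U W c i k (z, p) := fun σ => wedgeInt_kk r d σ hJ ha z U W
  simp only [hGS, Finset.mul_sum]
  refine integrable_finsetSum _ fun c _ => integrable_finsetSum _ fun i _ =>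
    integrable_finsetSum _ fun k _ => ?_
  obtain ⟨B, hB0, hB⟩ := cCoef_width hG z U W c i k
  have hwi := (cWeight_integrable A hJ ha c i k).abs
  set I := ∫ p in box, |cWeight A a c i k p|
  have hI : 0 ≤ I := integral_nonneg fun p => abs_nonneg _
  set F : ℝ → ℝ := fun σ => ∫ p in box, cWeight A a c i k p • cCoef A r d σ U W c i k (z, p)
  have hpt : ∀ σ, 0 < σ → ∀ᵐ p ∂volume.restrict box,
      ‖cWeight A a c i k p • cCoef A r d σ U W c i k (z, p)‖ ≤
        B * (1 / σ ^ 4 + 1 / σ ^ 2) * |cWeight A a c i k p| := fun σ hσ =>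
    (ae_restrict_mem isOpen_box.measurableSet).mono fun p hp => by
      rw [norm_smul, Real.norm_eq_abs, Real.norm_eq_abs, mul_comm (B * _)]
      rcases eq_or_ne (cWeight A a c i k p) 0 with h | h
      · simp [h]
      · exact mul_le_mul_of_nonneg_left (hB p (cWeight_supp A a c i k hp h) σ hσ).1 (abs_nonneg _)
  have hFb : ∀ σ, 0 < σ → |F σ| ≤ B * (1 / σ ^ 4 + 1 / σ ^ 2) * I := fun σ hσ =>
    (norm_integral_le_of_norm_le (hwi.const_mul _) (hpt σ hσ)).trans_eq (integral_const_mul _ _)
  have hm : ∀ σ, AEStronglyMeasurable (fun p => cWeight A a c i k p • cCoef A r d σ U W c i k (z, p))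
      (volume.restrict box) := fun σ =>
    (cWeight_integrable A hJ ha c i k).aestronglyMeasurable.smul
      ((cCoef_smooth A r d σ U W c i k).continuous.comp (Continuous.prodMk_right z)).aestronglyMeasurable
  have hFc : ContinuousOn F (Ioi 0) := fun σ (hσ : 0 < σ) => by
    refine (continuousAt_of_dominated
      (bound := fun p => B * (1 / (σ / 2) ^ 4 + 1 / (σ / 2) ^ 2) * |cWeight A a c i k p|)
      (Eventually.of_forall hm) ?_ (hwi.const_mul _) ?_).continuousWithinAt
    · refine eventually_of_mem (Ioi_mem_nhds (half_lt_self hσ)) fun τ (hτ : σ / 2 < τ) => ?_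
      refine (hpt τ (lt_trans (half_pos hσ) hτ)).mono fun p hp => hp.trans ?_
      have h2 : 0 < σ / 2 := half_pos hσ
      gcongr
    · refine (ae_restrict_mem isOpen_box.measurableSet).mono fun p hp => ?_
      rcases eq_or_ne (cWeight A a c i k p) 0 with h | h
      · simp [h, continuousAt_const]
      · simp only [smul_eq_mul]
        exact continuousAt_const.mul (hB p (cWeight_supp A a c i k hp h) σ hσ).2
  have hb : ∀ t, ‖omW ε t * F (ε * Real.sqrt t)‖ ≤
      (Ioc 0 (1 / ε)).indicator (fun t => 2 * B * I / ε ^ 4 * (t ^ 2 / 24 * Real.exp (-t))) t := by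
    intro t
    by_cases ht : t ∈ Ioc 0 (1 / ε)
    · rw [omW, indicator_of_mem ht, indicator_of_mem ht, Real.norm_eq_abs, abs_mul,
        abs_of_nonneg (by have := ht.1; positivity : 0 ≤ t ^ 4 / 24 * Real.exp (-t))]
      have hw := width_mem hε hε4 ht
      have hσ := hw.1
      have ht0 := ht.1
      set σ := ε * Real.sqrt t
      have hσ2 : 1 / σ ^ 2 ≤ 1 / σ ^ 4 := by
        refine one_div_le_one_div_of_le (by positivity) ?_
        exact pow_le_pow_of_le_one hσ.le (hw.2.trans (by norm_num)) (by norm_num)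
      have hσ4 : σ ^ 4 = ε ^ 4 * t ^ 2 := by
        rw [mul_pow, show (4 : ℕ) = 2 * 2 from rfl, pow_mul (Real.sqrt t), Real.sq_sqrt ht0.le]
      refine (mul_le_mul_of_nonneg_left ((hFb σ hσ).trans
        (mul_le_mul_of_nonneg_right (mul_le_mul_of_nonneg_left (add_le_add le_rfl hσ2) hB0) hI))
        (by positivity)).trans_eq ?_
      rw [hσ4]
      field_simp
      ring
    · rw [omW, indicator_of_notMem ht, indicator_of_notMem ht, zero_mul, norm_zero]
  refine ((integrable_indicator_iff measurableSet_Ioc).2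
    ((by fun_prop : Continuous _).integrableOn_Ioc)).mono' ?_ (ae_of_all _ hb)
  have h2 : AEStronglyMeasurable
      ((Ioc 0 (1 / ε)).indicator fun t => t ^ 4 / 24 * Real.exp (-t) * F (ε * Real.sqrt t)) :=
    (aestronglyMeasurable_indicator_iff measurableSet_Ioc).2
      (((by fun_prop : Continuous fun t : ℝ => t ^ 4 / 24 * Real.exp (-t)).continuousOn.mul
        (hFc.comp (by fun_prop : Continuous fun t : ℝ => ε * Real.sqrt t).continuousOn
          fun t ht => (width_mem hε hε4 ht).1)).aestronglyMeasurable measurableSet_Ioc)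
  refine h2.congr (ae_of_all _ fun t => ?_)
  show _ = (Ioc 0 (1 / ε)).indicator _ t * F _
  by_cases ht : t ∈ Ioc 0 (1 / ε)
  · rw [indicator_of_mem ht, indicator_of_mem ht]
  · rw [indicator_of_notMem ht, indicator_of_notMem ht, zero_mul]

end Vale.Agent.P204.Kernel
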